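import Vale.Agent.Lib.P089.C.Main
import Vale.Agent.Lib.P089.Interface2

/-!
# P089 part C, version with one extra vector
-/

namespace Vale.Agent.P089.C

open Finset

section

variable {W : Type} [AddCommGroup W] [Module (ZMod 2) W] [Fintype W] [DecidableEq W]

/-- one more vector avoiding all the translates of the bad set -/
theorem exists_extra (D : ℕ) (S : Finset W) (r : Fin D → W)
    (hS : 2 ^ D * S.card < Fintype.card W) :
    ∃ w : W, ∀ c : Fin D → ZMod 2, w + ∑ i, c i • r i ∉ S := by
  classical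
  by_contra hcon
  push Not at hcon
  have hcover : (univ : Finset W) ⊆ (univ : Finset (Fin D → ZMod 2)).biUnion fun c =>
      S.image fun s => s - ∑ i, c i • r i := by
    intro w _
    obtain ⟨c, hc⟩ := hcon w
    refine mem_biUnion.2 ⟨c, mem_univ _, mem_image.2 ⟨_, hc, ?_⟩⟩
    rw [add_sub_cancel_right]
  have h1 := (card_le_card hcover).trans card_biUnion_le
  have h2 : ∑ c : Fin D → ZMod 2, (S.image fun s => s - ∑ i, c i • r i).card ≤
      2 ^ D * S.card := by
    calc _ ≤ ∑ _c : Fin D → ZMod 2, S.card := sum_le_sum fun c _ => card_image_le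
      _ = 2 ^ D * S.card := by
        rw [sum_const, smul_eq_mul, card_univ, Fintype.card_fun, Fintype.card_fin, ZMod.card]
  rw [card_univ] at h1
  omega

end

open scoped Classical in
theorem exists_code2 (k : ℕ) (hk : 2 ≤ k) (X : Type) [Fintype X] (hX : 100 ≤ Fintype.card X)
    (τ : X → Fin k → ZMod 2) (hτ : ∀ x, τ x ≠ 0) (B : X → Finset X)
    (hB : ∀ x, 8 * (B x).card ≤ Fintype.card X) :
    ∃ (R : Submodule (ZMod 2) (X → Fin k → ZMod 2)) (rs : X → Fin k → ZMod 2),
      Module.finrank (ZMod 2) R = k * Fintype.card X / 2 ∧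
      (∀ r ∈ R, ∑ x, ∑ i, r x i * τ x i = 0) ∧
      (∑ x, ∑ i, rs x i * τ x i = 0) ∧
      (∀ r ∈ R, ∀ a : ZMod 2, ∀ x, (∀ y, y ∉ B x → (r + a • rs) y = 0) → r = 0 ∧ a = 0) ∧
      ∀ ω : X → Fin k → ZMod 2, (∀ r ∈ R, ∑ x, ∑ i, r x i * ω x i = 0) → ω ≠ 0 →
        Fintype.card X ≤ 10 * (Finset.univ.filter fun x => ω x ≠ 0).card := by
  set n := Fintype.card X with hn
  obtain ⟨x0⟩ : Nonempty X := Fintype.card_pos_iff.1 (by omega)
  have hτ0 : τ ≠ 0 := fun h => hτ x0 (by rw [h]; rfl)
  let W : Submodule (ZMod 2) (X → Fin k → ZMod 2) := LinearMap.ker (pair τ)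
  have hWcard : Fintype.card W * 2 = 2 ^ (k * n) := by
    have h1 := card_ker (pair τ) (pair_ne_zero hτ0)
    have h2 : Fintype.card (X → Fin k → ZMod 2) = 2 ^ (k * n) := by
      rw [Fintype.card_fun, Fintype.card_fun, Fintype.card_fin, ZMod.card, ← pow_mul]
    have h3 : Fintype.card W = (univ.filter fun w => pair τ w = 0).card :=
      Fintype.card_of_subtype _ fun w => by
        rw [mem_filter]
        exact ⟨fun h => LinearMap.mem_ker.2 h.2, fun h => ⟨mem_univ _, LinearMap.mem_ker.1 h⟩⟩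
    rw [h3, ← h2]
    exact h1
  -- the bad set
  let S : Finset W := univ.filter fun w => ∃ x, ∀ y, y ∉ B x → w.1 y = 0
  have hS : S.card ≤ n * (2 ^ k) ^ (n / 8) := by
    have h1 : S.card = (S.map (Function.Embedding.subtype _)).card := (card_map _).symm
    have h2 : S.map (Function.Embedding.subtype _) ⊆ (univ : Finset X).biUnion fun x =>
        univ.filter fun r : X → Fin k → ZMod 2 => ∀ y, y ∉ B x → r y = 0 := by
      intro w hw
      obtain ⟨w', hw', rfl⟩ := mem_map.1 hw
      obtain ⟨x, hx⟩ := (mem_filter.1 hw').2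
      exact mem_biUnion.2 ⟨x, mem_univ _, mem_filter.2 ⟨mem_univ _, hx⟩⟩
    calc S.card = _ := h1
      _ ≤ _ := card_le_card h2
      _ ≤ ∑ x : X, (univ.filter fun r : X → Fin k → ZMod 2 =>
          ∀ y, y ∉ B x → r y = 0).card := card_biUnion_le
      _ ≤ ∑ _x : X, (2 ^ k) ^ (n / 8) := sum_le_sum fun x _ => by
          rw [card_supported]
          refine Nat.pow_le_pow_right (by positivity) ?_
          have := hB x
          omega
      _ = _ := by rw [sum_const, smul_eq_mul, card_univ]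
  -- the light vectors
  let ι : Type := {ω : X → Fin k → ZMod 2 // ω ≠ 0 ∧ 10 * (univ.filter fun x => ω x ≠ 0).card < n}
  have hι : Fintype.card ι * 8 ^ n ≤ 9 ^ n * (8 * 2 ^ k) ^ (n / 10) := by
    refine le_trans (Nat.mul_le_mul_right _ ?_) (card_light (k := k) (n / 10) (by omega))
    rw [Fintype.card_subtype]
    refine card_le_card fun ω hω => ?_
    have := (mem_filter.1 hω).2.2
    exact mem_filter.2 ⟨mem_univ _, by omega⟩
  have hτn : (univ.filter fun x => τ x ≠ 0).card = n := by
    rw [filter_true_of_mem fun x _ => hτ x, card_univ]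
  have hSW := num_S k n hk hX _ _ hS hWcard
  obtain ⟨r, hr1, hr2⟩ := exists_tuple (k * n / 2) S
    (fun j : ι => (pair j.1).comp W.subtype)
    (fun j hj => by
      rcases eq_of_vanish hτ0 (ω := j.1) (fun r hr => by
        have := LinearMap.congr_fun hj ⟨r, LinearMap.mem_ker.2 hr⟩
        exact this) with h | h
      · exact j.2.1 h
      · have := j.2.2
        rw [h, hτn] at this
        omega)
    hSW (num_i k n (n / 10) _ hk hX (by omega) hι)
  obtain ⟨rs, hrs⟩ := exists_extra (k * n / 2) S r (by omega)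
  have hrW : ∀ c : Fin (k * n / 2) → ZMod 2,
      ∑ i, c i • ((r i : W) : X → Fin k → ZMod 2) = ((∑ i, c i • r i : W) : X → Fin k → ZMod 2) :=
    fun c => by
      rw [Submodule.coe_sum]
      rfl
  have hlin : LinearIndependent (ZMod 2) fun i => ((r i : W) : X → Fin k → ZMod 2) := by
    rw [Fintype.linearIndependent_iff]
    intro c hc
    by_contra hcon
    refine hr1 c (fun h => hcon fun i => by rw [h]; rfl) ?_
    refine mem_filter.2 ⟨mem_univ _, x0, fun y _ => ?_⟩
    rw [← hrW, hc]
    rfl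
  refine ⟨Submodule.span (ZMod 2) (Set.range fun i => ((r i : W) : X → Fin k → ZMod 2)), rs.1,
    ?_, ?_, ?_, ?_, ?_⟩
  · rw [finrank_span_eq_card hlin, Fintype.card_fin]
  · intro s hs
    obtain ⟨c, rfl⟩ := (Submodule.mem_span_range_iff_exists_fun _).1 hs
    rw [hrW]
    exact LinearMap.mem_ker.1 (∑ i, c i • r i : W).2
  · exact LinearMap.mem_ker.1 rs.2
  · intro s hs a x hx
    obtain ⟨c, rfl⟩ := (Submodule.mem_span_range_iff_exists_fun _).1 hs
    rcases zmod2_cases a with rfl | rfl
    · refine ⟨?_, rfl⟩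
      by_cases hc : c = 0
      · simp [hc]
      · exfalso
        refine hr1 c hc (mem_filter.2 ⟨mem_univ _, x, fun y hy => ?_⟩)
        rw [← hrW]
        have := hx y hy
        rwa [zero_smul, add_zero] at this
    · exfalso
      refine hrs c (mem_filter.2 ⟨mem_univ _, x, fun y hy => ?_⟩)
      have := hx y hy
      rw [one_smul, hrW, add_comm] at this
      exact this
  · intro ω hω hω0
    by_contra hcon
    push Not at hcon
    obtain ⟨i, hi⟩ := hr2 ⟨ω, hω0, hcon⟩
    exact hi (hω _ (Submodule.subset_span ⟨i, rfl⟩))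

/-- **Part C2** -/
theorem partC2 : P089.PartC2 := by
  refine ⟨100, fun k hk X _ hX τ hτ B hB => ?_⟩
  obtain ⟨R, rs, h1, h2, h3, h4, h5⟩ := exists_code2 k hk X hX τ hτ B hB
  refine ⟨R, rs, h1, h2, fun r hr x hx => ?_, fun ω hω hω0 => ?_, h3, fun r hr x hx => ?_⟩
  · exact (h4 r hr 0 x fun y hy => by rw [zero_smul, add_zero]; exact hx y hy).1
  · convert h5 ω hω hω0
  · have := (h4 r hr 1 x fun y hy => by rw [one_smul, add_comm]; exact hx y hy).2
    exact one_ne_zero this

end Vale.Agent.P089.C
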