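import Mathlib

/-!
# P089 part C, counting: vectors avoiding a bad set and killing no functional of a family
-/

namespace Vale.Agent.P089.C

open Finset

section fibers

variable {A B : Type} [AddCommGroup A] [AddCommGroup B] [Fintype A] [Fintype B] [DecidableEq A]
  [DecidableEq B]

omit [DecidableEq A] in
/-- the fibres of a surjective homomorphism have the same cardinality -/
theorem card_preimage (f : A →+ B) (hf : Function.Surjective f) (S : Finset B) :
    (univ.filter fun a => f a ∈ S).card * Fintype.card B = S.card * Fintype.card A := by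
  have h1 : ∀ b, (univ.filter fun a => f a = b).card = (univ.filter fun a => f a = 0).card :=
    fun b => AddMonoidHom.card_fiber_eq_of_mem_range f (Set.mem_range.2 (hf b))
      (Set.mem_range.2 (hf 0))
  have h2 : ∀ T : Finset B, (univ.filter fun a => f a ∈ T).card =
      T.card * (univ.filter fun a => f a = 0).card := fun T => by
    rw [card_eq_sum_card_fiberwise (f := f) (t := T) (s := univ.filter fun a => f a ∈ T)
      (fun a ha => by simpa using ha)]
    rw [sum_const_nat (m := (univ.filter fun a => f a = 0).card)]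
    intro b hb
    rw [← h1 b, filter_filter]
    congr 1
    ext a
    simp only [mem_filter, mem_univ, true_and]
    exact ⟨fun h => h.2, fun h => ⟨h ▸ hb, h⟩⟩
  have h3 := h2 univ
  simp only [mem_univ, filter_true, card_univ] at h3
  rw [h2, h3]
  ring

end fibers

variable {W : Type} [AddCommGroup W] [Module (ZMod 2) W] [Fintype W] [DecidableEq W]

theorem zmod2_cases (a : ZMod 2) : a = 0 ∨ a = 1 := by
  revert a
  decide

/-- the number of tuples with a given nontrivial combination in `S` -/
theorem card_comb (D : ℕ) (S : Finset W) (c : Fin D → ZMod 2) (hc : c ≠ 0) :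
    (univ.filter fun r : Fin D → W => ∑ i, c i • r i ∈ S).card * Fintype.card W =
      S.card * Fintype.card W ^ D := by
  obtain ⟨i0, hi0⟩ : ∃ i, c i ≠ 0 := by
    by_contra h
    push Not at h
    exact hc (funext h)
  let f : (Fin D → W) →+ W :=
    { toFun := fun r => ∑ i, c i • r i
      map_zero' := by simp
      map_add' := fun r s => by simp [smul_add, sum_add_distrib] }
  have hf : Function.Surjective f := fun w => by
    refine ⟨Pi.single i0 w, ?_⟩
    show ∑ i, c i • (Pi.single i0 w : Fin D → W) i = w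
    rw [sum_eq_single i0]
    · rw [Pi.single_eq_same]
      rcases zmod2_cases (c i0) with h | h
      · exact absurd h hi0
      · rw [h, one_smul]
    · intro i _ hi
      rw [Pi.single_eq_of_ne hi, smul_zero]
    · intro h
      exact absurd (mem_univ _) h
  have h1 := card_preimage f hf S
  rw [Fintype.card_fun, Fintype.card_fin] at h1
  exact h1

omit [DecidableEq W] in
theorem card_ker (φ : W →ₗ[ZMod 2] ZMod 2) (hφ : φ ≠ 0) :
    (univ.filter fun w => φ w = 0).card * 2 = Fintype.card W := by
  have hs : Function.Surjective (φ : W →+ ZMod 2) := fun b => by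
    obtain ⟨w, hw⟩ : ∃ w, φ w ≠ 0 := by
      by_contra h
      push Not at h
      exact hφ (LinearMap.ext h)
    rcases zmod2_cases b with rfl | rfl
    · exact ⟨0, map_zero _⟩
    · rcases zmod2_cases (φ w) with h | h
      · exact absurd h hw
      · exact ⟨w, h⟩
  have h1 := card_preimage (φ : W →+ ZMod 2) hs {0}
  have h2 : Fintype.card (ZMod 2) = 2 := ZMod.card 2
  rw [h2, card_singleton, one_mul] at h1
  rw [← h1]
  simp

omit [DecidableEq W] in
/-- the number of tuples killed by a functional -/
theorem card_killed (D : ℕ) (φ : W →ₗ[ZMod 2] ZMod 2) (hφ : φ ≠ 0) :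
    (univ.filter fun r : Fin D → W => ∀ i, φ (r i) = 0).card * 2 ^ D = Fintype.card W ^ D := by
  have h1 : (univ.filter fun r : Fin D → W => ∀ i, φ (r i) = 0) =
      Fintype.piFinset fun _ : Fin D => univ.filter fun w => φ w = 0 := by
    ext r
    simp [Fintype.mem_piFinset]
  rw [h1, Fintype.card_piFinset_const, ← mul_pow, card_ker φ hφ]

/-- union bound -/
theorem exists_tuple (D : ℕ) (S : Finset W) {ι : Type} [Fintype ι]
    (φ : ι → W →ₗ[ZMod 2] ZMod 2) (hφ : ∀ j, φ j ≠ 0)
    (hS : 2 * (2 ^ D * S.card) < Fintype.card W) (hι : 2 * Fintype.card ι ≤ 2 ^ D) :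
    ∃ r : Fin D → W, (∀ c : Fin D → ZMod 2, c ≠ 0 → ∑ i, c i • r i ∉ S) ∧
      ∀ j, ∃ i, φ j (r i) ≠ 0 := by
  classical
  by_contra hcon
  push Not at hcon
  have hWpos : 0 < Fintype.card W := by omega
  -- every tuple is bad
  have hcover : (univ : Finset (Fin D → W)) ⊆
      ((univ.filter fun c : Fin D → ZMod 2 => c ≠ 0).biUnion fun c =>
        univ.filter fun r : Fin D → W => ∑ i, c i • r i ∈ S) ∪
      ((univ : Finset ι).biUnion fun j =>
        univ.filter fun r : Fin D → W => ∀ i, φ j (r i) = 0) := by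
    intro r _
    rw [mem_union, mem_biUnion, mem_biUnion]
    by_cases h : ∀ c : Fin D → ZMod 2, c ≠ 0 → ∑ i, c i • r i ∉ S
    · right
      obtain ⟨j, hj⟩ := hcon r h
      exact ⟨j, mem_univ _, mem_filter.2 ⟨mem_univ _, hj⟩⟩
    · left
      push Not at h
      obtain ⟨c, hc, hcS⟩ := h
      exact ⟨c, mem_filter.2 ⟨mem_univ _, hc⟩, mem_filter.2 ⟨mem_univ _, hcS⟩⟩
  have h1 := card_le_card hcover
  rw [card_univ, Fintype.card_fun, Fintype.card_fin] at h1
  have h2 := h1.trans ((card_union_le _ _).trans (add_le_add card_biUnion_le card_biUnion_le))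
  -- multiply by `card W * 2 ^ D`
  have h3 : (∑ c ∈ univ.filter (fun c : Fin D → ZMod 2 => c ≠ 0),
      (univ.filter fun r : Fin D → W => ∑ i, c i • r i ∈ S).card) * Fintype.card W ≤
      2 ^ D * (S.card * Fintype.card W ^ D) := by
    rw [sum_mul]
    calc _ = ∑ c ∈ univ.filter (fun c : Fin D → ZMod 2 => c ≠ 0),
          S.card * Fintype.card W ^ D :=
          sum_congr rfl fun c hc => card_comb D S c (mem_filter.1 hc).2
      _ = (univ.filter (fun c : Fin D → ZMod 2 => c ≠ 0)).card * (S.card * Fintype.card W ^ D) := by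
          rw [sum_const, smul_eq_mul]
      _ ≤ 2 ^ D * (S.card * Fintype.card W ^ D) := by
          refine Nat.mul_le_mul_right _ ((card_le_univ _).trans (le_of_eq ?_))
          rw [Fintype.card_fun, Fintype.card_fin, ZMod.card]
  have h4 : (∑ j : ι, (univ.filter fun r : Fin D → W => ∀ i, φ j (r i) = 0).card) * 2 ^ D =
      Fintype.card ι * Fintype.card W ^ D := by
    rw [sum_mul]
    calc _ = ∑ _j : ι, Fintype.card W ^ D := sum_congr rfl fun j _ => card_killed D (φ j) (hφ j)
      _ = _ := by rw [sum_const, smul_eq_mul, card_univ]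
  have h5 : 2 * (2 ^ D * Fintype.card W * Fintype.card W ^ D) ≤
      2 * (2 ^ D * (2 ^ D * (S.card * Fintype.card W ^ D)) +
        Fintype.card W * (Fintype.card ι * Fintype.card W ^ D)) := by
    have h6 := Nat.mul_le_mul_left (2 ^ D * Fintype.card W) h2
    refine Nat.mul_le_mul_left 2 (h6.trans ?_)
    rw [mul_add]
    refine add_le_add ?_ (le_of_eq ?_)
    · rw [mul_assoc, mul_comm (Fintype.card W)]
      exact Nat.mul_le_mul_left _ h3
    · rw [mul_comm (2 ^ D) (Fintype.card W), mul_assoc, mul_comm (2 ^ D), h4]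
  have hWD : 0 < Fintype.card W ^ D := Nat.pow_pos hWpos
  have h2D : 0 < 2 ^ D := Nat.pow_pos (by norm_num)
  -- cancel
  have h7 : 2 * (2 ^ D * Fintype.card W) ≤
      2 * (2 ^ D * (2 ^ D * S.card)) + 2 * (Fintype.card W * Fintype.card ι) := by
    refine Nat.le_of_mul_le_mul_right ?_ hWD
    calc _ = 2 * (2 ^ D * Fintype.card W * Fintype.card W ^ D) := by ring
      _ ≤ _ := h5
      _ = _ := by ring
  have h8 : 2 ^ D * (2 * (2 ^ D * S.card)) < 2 ^ D * Fintype.card W :=
    Nat.mul_lt_mul_of_pos_left hS h2D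
  have h9 : Fintype.card W * (2 * Fintype.card ι) ≤ Fintype.card W * 2 ^ D :=
    Nat.mul_le_mul_left _ hι
  nlinarith

end Vale.Agent.P089.C
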