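import Vale.Agent.Lib.P089.Interface
import Vale.Agent.Lib.P089.C.Count

/-!
# P089 part C: codes
-/

namespace Vale.Agent.P089.C

open Finset

section numeric

theorem nine_pow (n : ℕ) : 9 ^ n ≤ 2 ^ (n / 5 + 1) * 8 ^ n := by
  have h1 : ∀ q : ℕ, (9 : ℕ) ^ (5 * q) ≤ 2 ^ q * 8 ^ (5 * q) := fun q => by
    rw [pow_mul, pow_mul, ← mul_pow]
    exact Nat.pow_le_pow_left (by norm_num) q
  have h2 : ∀ s : ℕ, s < 5 → (9 : ℕ) ^ s ≤ 2 * 8 ^ s := by decide
  have h3 := h1 (n / 5)
  have h4 := h2 (n % 5) (Nat.mod_lt _ (by norm_num))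
  have h5 : n = 5 * (n / 5) + n % 5 := (Nat.div_add_mod n 5).symm
  calc (9 : ℕ) ^ n = 9 ^ (5 * (n / 5)) * 9 ^ (n % 5) := by rw [← pow_add, ← h5]
    _ ≤ (2 ^ (n / 5) * 8 ^ (5 * (n / 5))) * (2 * 8 ^ (n % 5)) := Nat.mul_le_mul h3 h4
    _ = 2 ^ (n / 5 + 1) * (8 ^ (5 * (n / 5)) * 8 ^ (n % 5)) := by ring
    _ = 2 ^ (n / 5 + 1) * 8 ^ n := by rw [← pow_add, ← h5]

end numeric

section

variable {X : Type} [Fintype X] {k : ℕ}

/-- the pairing -/
def pair (ω : X → Fin k → ZMod 2) : (X → Fin k → ZMod 2) →ₗ[ZMod 2] ZMod 2 where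
  toFun r := ∑ x, ∑ i, r x i * ω x i
  map_add' r s := by
    simp only [Pi.add_apply, add_mul, sum_add_distrib]
  map_smul' c r := by
    simp only [Pi.smul_apply, smul_eq_mul, mul_assoc, mul_sum, RingHom.id_apply]

theorem pair_apply (ω r : X → Fin k → ZMod 2) : pair ω r = ∑ x, ∑ i, r x i * ω x i := rfl

open scoped Classical in
theorem pair_single (ω : X → Fin k → ZMod 2) (x : X) (i : Fin k) :
    pair ω (Pi.single x (Pi.single i 1)) = ω x i := by
  rw [pair_apply, sum_eq_single x, sum_eq_single i]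
  · rw [Pi.single_eq_same, Pi.single_eq_same, one_mul]
  · intro j _ hj
    rw [Pi.single_eq_same, Pi.single_eq_of_ne hj, zero_mul]
  · intro h
    exact absurd (mem_univ _) h
  · intro y _ hy
    refine sum_eq_zero fun j _ => ?_
    rw [Pi.single_eq_of_ne hy, Pi.zero_apply, zero_mul]
  · intro h
    exact absurd (mem_univ _) h

theorem pair_inj {ω ω' : X → Fin k → ZMod 2} (h : pair ω = pair ω') : ω = ω' := by
  classical
  funext x i
  rw [← pair_single ω, ← pair_single ω', h]

theorem pair_ne_zero {ω : X → Fin k → ZMod 2} (h : ω ≠ 0) : pair ω ≠ 0 := by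
  intro h1
  apply h
  apply pair_inj
  rw [h1]
  refine (LinearMap.ext fun r => ?_)
  rw [pair_apply]
  simp

/-- a functional vanishing on the orthogonal complement of `τ` is `0` or `τ` -/
theorem eq_of_vanish {τ ω : X → Fin k → ZMod 2} (hτ : τ ≠ 0)
    (h : ∀ r, pair τ r = 0 → pair ω r = 0) : ω = 0 ∨ ω = τ := by
  obtain ⟨r0, hr0⟩ : ∃ r0, pair τ r0 ≠ 0 := by
    by_contra hcon
    push Not at hcon
    exact pair_ne_zero hτ (LinearMap.ext hcon)
  have hr1 : pair τ r0 = 1 := (zmod2_cases _).resolve_left hr0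
  have h1 : ∀ r, pair ω r = pair τ r * pair ω r0 := fun r => by
    have h2 := h (r - pair τ r • r0) (by rw [map_sub, map_smul, hr1, smul_eq_mul, mul_one, sub_self])
    rw [map_sub, map_smul, smul_eq_mul, sub_eq_zero] at h2
    exact h2
  rcases zmod2_cases (pair ω r0) with h2 | h2
  · left
    by_contra h3
    exact pair_ne_zero h3 (LinearMap.ext fun r => by rw [h1, h2, mul_zero]; rfl)
  · right
    exact pair_inj (LinearMap.ext fun r => by rw [h1, h2, mul_one])

open scoped Classical in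
/-- number of vectors supported in a given set -/
theorem card_supported (B : Finset X) :
    (univ.filter fun r : X → Fin k → ZMod 2 => ∀ y, y ∉ B → r y = 0).card =
      (2 ^ k) ^ B.card := by
  have h1 : (univ.filter fun r : X → Fin k → ZMod 2 => ∀ y, y ∉ B → r y = 0) =
      Fintype.piFinset fun y : X => if y ∈ B then univ else {0} := by
    ext r
    simp only [mem_filter, mem_univ, true_and, Fintype.mem_piFinset]
    refine forall_congr' fun y => ?_
    by_cases hy : y ∈ B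
    · simp [hy]
    · simp [hy]
  rw [h1, Fintype.card_piFinset]
  have h2 : ∀ y : X, (if y ∈ B then (univ : Finset (Fin k → ZMod 2)) else {0}).card =
      if y ∈ B then 2 ^ k else 1 := fun y => by
    split_ifs
    · rw [card_univ, Fintype.card_fun, Fintype.card_fin, ZMod.card]
    · rw [card_singleton]
  rw [prod_congr rfl fun y _ => h2 y, prod_ite_mem, univ_inter, prod_const]

open scoped Classical in
/-- weight enumerator bound -/
theorem card_light (a : ℕ) (ha : a ≤ Fintype.card X) :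
    (univ.filter fun ω : X → Fin k → ZMod 2 =>
      (univ.filter fun x => ω x ≠ 0).card ≤ a).card * 8 ^ Fintype.card X ≤
      9 ^ Fintype.card X * (8 * 2 ^ k) ^ a := by
  set n := Fintype.card X with hn
  set T : ℕ := 8 * 2 ^ k with hT
  have hTpos : 0 < T := by positivity
  have h1 : ∑ ω : X → Fin k → ZMod 2, ∏ x, (if ω x = 0 then T else 1) =
      (∑ a : Fin k → ZMod 2, (if a = 0 then T else 1)) ^ n := by
    have h2 := Fintype.prod_sum (ι := X) (κ := fun _ => Fin k → ZMod 2)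
      (fun _ a => if a = 0 then T else 1)
    rw [← h2, prod_const, card_univ]
  have h3 : (∑ a : Fin k → ZMod 2, (if a = 0 then T else 1)) ≤ 9 * 2 ^ k := by
    rw [sum_ite, sum_const, sum_const, smul_eq_mul, smul_eq_mul, mul_one]
    have h4 : (univ.filter fun a : Fin k → ZMod 2 => a = 0).card = 1 := by
      rw [filter_eq' univ (0 : Fin k → ZMod 2), if_pos (mem_univ _), card_singleton]
    have h5 : (univ.filter fun a : Fin k → ZMod 2 => ¬ a = 0).card ≤ 2 ^ k := by
      refine (card_le_univ _).trans (le_of_eq ?_)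
      rw [Fintype.card_fun, Fintype.card_fin, ZMod.card]
    rw [h4, one_mul]
    omega
  have h6 : ∀ ω : X → Fin k → ZMod 2,
      ∏ x, (if ω x = 0 then T else 1) = T ^ (univ.filter fun x => ω x = 0).card := fun ω => by
    rw [prod_ite, prod_const, prod_const_one, mul_one]
  have h7 : ∀ ω : X → Fin k → ZMod 2, (univ.filter fun x => ω x ≠ 0).card ≤ a →
      T ^ (n - a) ≤ ∏ x, (if ω x = 0 then T else 1) := fun ω hω => by
    rw [h6]
    refine Nat.pow_le_pow_right hTpos ?_
    have h8 := card_filter_add_card_filter_not (s := (univ : Finset X)) (fun x => ω x = 0)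
    rw [card_univ, ← hn] at h8
    have h9 : (univ.filter fun x => ω x ≠ 0).card = (univ.filter fun x => ¬ ω x = 0).card := rfl
    omega
  have h8 : (univ.filter fun ω : X → Fin k → ZMod 2 =>
      (univ.filter fun x => ω x ≠ 0).card ≤ a).card * T ^ (n - a) ≤ (9 * 2 ^ k) ^ n := by
    calc _ = ∑ ω ∈ univ.filter (fun ω : X → Fin k → ZMod 2 =>
        (univ.filter fun x => ω x ≠ 0).card ≤ a), T ^ (n - a) := by
          rw [sum_const, smul_eq_mul]
      _ ≤ ∑ ω ∈ univ.filter (fun ω : X → Fin k → ZMod 2 =>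
        (univ.filter fun x => ω x ≠ 0).card ≤ a), ∏ x, (if ω x = 0 then T else 1) :=
          sum_le_sum fun ω hω => h7 ω (mem_filter.1 hω).2
      _ ≤ ∑ ω : X → Fin k → ZMod 2, ∏ x, (if ω x = 0 then T else 1) :=
          sum_le_sum_of_subset (filter_subset _ _)
      _ ≤ _ := by
          rw [h1]
          exact Nat.pow_le_pow_left h3 n
  have h9 : T ^ n = T ^ (n - a) * T ^ a := by rw [← pow_add, Nat.sub_add_cancel ha]
  have h10 : 0 < (2 ^ k) ^ n := by positivity
  refine Nat.le_of_mul_le_mul_right ?_ h10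
  calc _ = (univ.filter fun ω : X → Fin k → ZMod 2 =>
        (univ.filter fun x => ω x ≠ 0).card ≤ a).card * T ^ n := by rw [hT]; ring
    _ = ((univ.filter fun ω : X → Fin k → ZMod 2 =>
        (univ.filter fun x => ω x ≠ 0).card ≤ a).card * T ^ (n - a)) * T ^ a := by rw [h9]; ring
    _ ≤ (9 * 2 ^ k) ^ n * T ^ a := Nat.mul_le_mul_right _ h8
    _ = _ := by ring

end

section numeric2

/-- exponent bookkeeping for the bad set -/
theorem num_S (k n : ℕ) (hk : 2 ≤ k) (hn : 100 ≤ n) (s w : ℕ)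
    (hs : s ≤ n * (2 ^ k) ^ (n / 8)) (hw : w * 2 = 2 ^ (k * n)) :
    2 * (2 ^ (k * n / 2) * s) < w := by
  have h1 : n < 2 ^ (n / 4 + 2) := by
    have h2 : n / 4 < 2 ^ (n / 4) := Nat.lt_two_pow_self
    have h3 : 2 ^ (n / 4 + 2) = 4 * 2 ^ (n / 4) := by ring
    omega
  have h2 : k * (n / 8) * 8 ≤ k * n := by
    rw [mul_assoc]
    exact Nat.mul_le_mul_left _ (Nat.div_mul_le_self n 8)
  have h3 : 2 * n ≤ k * n := Nat.mul_le_mul_right _ hk
  have h4 : 2 + k * n / 2 + (n / 4 + 2) + k * (n / 8) ≤ k * n := by omega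
  have h5 : s < 2 ^ (n / 4 + 2 + k * (n / 8)) := by
    refine hs.trans_lt ?_
    rw [pow_add, ← pow_mul]
    exact Nat.mul_lt_mul_of_pos_right h1 (by positivity)
  have h6 : 2 * (2 * (2 ^ (k * n / 2) * s)) < 2 ^ (k * n) := by
    calc _ = 2 ^ (2 + k * n / 2) * s := by ring
      _ < 2 ^ (2 + k * n / 2) * 2 ^ (n / 4 + 2 + k * (n / 8)) :=
          Nat.mul_lt_mul_of_pos_left h5 (by positivity)
      _ = 2 ^ (2 + k * n / 2 + (n / 4 + 2) + k * (n / 8)) := by rw [← pow_add]; congr 1; ring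
      _ ≤ 2 ^ (k * n) := Nat.pow_le_pow_right (by norm_num) h4
  omega

/-- exponent bookkeeping for the light vectors -/
theorem num_i (k n a c : ℕ) (hk : 2 ≤ k) (hn : 100 ≤ n) (ha : 10 * a ≤ n)
    (hc : c * 8 ^ n ≤ 9 ^ n * (8 * 2 ^ k) ^ a) : 2 * c ≤ 2 ^ (k * n / 2) := by
  have h1 : c ≤ 2 ^ (n / 5 + 1 + (3 * a + k * a)) := by
    refine Nat.le_of_mul_le_mul_right ?_ (show 0 < 8 ^ n by positivity)
    calc _ ≤ _ := hc
      _ ≤ (2 ^ (n / 5 + 1) * 8 ^ n) * (8 * 2 ^ k) ^ a := Nat.mul_le_mul_right _ (nine_pow n)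
      _ = (2 ^ (n / 5 + 1) * 8 ^ n) * 2 ^ (3 * a + k * a) := by
          congr 1
          rw [mul_pow, pow_add, pow_mul, pow_mul]
          norm_num
      _ = _ := by rw [pow_add 2 (n / 5 + 1)]; ring
  have h2 : 10 * (k * a) ≤ k * n := by
    calc 10 * (k * a) = k * (10 * a) := by ring
      _ ≤ _ := Nat.mul_le_mul_left _ ha
  have h3 : 2 * n ≤ k * n := Nat.mul_le_mul_right _ hk
  have h4 : 1 + (n / 5 + 1 + (3 * a + k * a)) ≤ k * n / 2 := by omega
  calc 2 * c ≤ 2 * 2 ^ (n / 5 + 1 + (3 * a + k * a)) := Nat.mul_le_mul_left _ h1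
    _ = 2 ^ (1 + (n / 5 + 1 + (3 * a + k * a))) := by rw [pow_add 2 1, pow_one]
    _ ≤ _ := Nat.pow_le_pow_right (by norm_num) h4

end numeric2

open scoped Classical in
theorem exists_code (k : ℕ) (hk : 2 ≤ k) (X : Type) [Fintype X] (hX : 100 ≤ Fintype.card X)
    (τ : X → Fin k → ZMod 2) (hτ : ∀ x, τ x ≠ 0) (B : X → Finset X)
    (hB : ∀ x, 8 * (B x).card ≤ Fintype.card X) :
    ∃ R : Submodule (ZMod 2) (X → Fin k → ZMod 2),
      Module.finrank (ZMod 2) R = k * Fintype.card X / 2 ∧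
      (∀ r ∈ R, ∑ x, ∑ i, r x i * τ x i = 0) ∧
      (∀ r ∈ R, ∀ x, (∀ y, y ∉ B x → r y = 0) → r = 0) ∧
      ∀ ω : X → Fin k → ZMod 2, (∀ r ∈ R, ∑ x, ∑ i, r x i * ω x i = 0) → ω ≠ 0 →
        Fintype.card X ≤ 10 * (Finset.univ.filter fun x => ω x ≠ 0).card := by
  set n := Fintype.card X with hn
  obtain ⟨x0⟩ : Nonempty X := Fintype.card_pos_iff.1 (by omega)
  have hτ0 : τ ≠ 0 := fun h => hτ x0 (by rw [h]; rfl)
  let W : Submodule (ZMod 2) (X → Fin k → ZMod 2) := LinearMap.ker (pair τ)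
  have hWcard : Fintype.card W * 2 = 2 ^ (k * n) := by
    have h1 := card_ker (pair τ) (pair_ne_zero hτ0)
    have h2 : Fintype.card (X → Fin k → ZMod 2) = 2 ^ (k * n) := by
      rw [Fintype.card_fun, Fintype.card_fun, Fintype.card_fin, ZMod.card, ← pow_mul]
    have h3 : Fintype.card W = (univ.filter fun w => pair τ w = 0).card :=
      Fintype.card_of_subtype _ fun w => by
        rw [mem_filter]
        exact ⟨fun h => LinearMap.mem_ker.2 h.2, fun h => ⟨mem_univ _, LinearMap.mem_ker.1 h⟩⟩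
    rw [h3, ← h2]
    exact h1
  -- the bad set
  let S : Finset W := univ.filter fun w => ∃ x, ∀ y, y ∉ B x → w.1 y = 0
  have hS : S.card ≤ n * (2 ^ k) ^ (n / 8) := by
    have h1 : S.card = (S.map (Function.Embedding.subtype _)).card := (card_map _).symm
    have h2 : S.map (Function.Embedding.subtype _) ⊆ (univ : Finset X).biUnion fun x =>
        univ.filter fun r : X → Fin k → ZMod 2 => ∀ y, y ∉ B x → r y = 0 := by
      intro w hw
      obtain ⟨w', hw', rfl⟩ := mem_map.1 hw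
      obtain ⟨x, hx⟩ := (mem_filter.1 hw').2
      exact mem_biUnion.2 ⟨x, mem_univ _, mem_filter.2 ⟨mem_univ _, hx⟩⟩
    calc S.card = _ := h1
      _ ≤ _ := card_le_card h2
      _ ≤ ∑ x : X, (univ.filter fun r : X → Fin k → ZMod 2 =>
          ∀ y, y ∉ B x → r y = 0).card := card_biUnion_le
      _ ≤ ∑ _x : X, (2 ^ k) ^ (n / 8) := sum_le_sum fun x _ => by
          rw [card_supported]
          refine Nat.pow_le_pow_right (by positivity) ?_
          have := hB x
          omega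
      _ = _ := by rw [sum_const, smul_eq_mul, card_univ]
  -- the light vectors
  let ι : Type := {ω : X → Fin k → ZMod 2 // ω ≠ 0 ∧ 10 * (univ.filter fun x => ω x ≠ 0).card < n}
  have hι : Fintype.card ι * 8 ^ n ≤ 9 ^ n * (8 * 2 ^ k) ^ (n / 10) := by
    refine le_trans (Nat.mul_le_mul_right _ ?_) (card_light (k := k) (n / 10) (by omega))
    rw [Fintype.card_subtype]
    refine card_le_card fun ω hω => ?_
    have := (mem_filter.1 hω).2.2
    exact mem_filter.2 ⟨mem_univ _, by omega⟩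
  have hτn : (univ.filter fun x => τ x ≠ 0).card = n := by
    rw [filter_true_of_mem fun x _ => hτ x, card_univ]
  obtain ⟨r, hr1, hr2⟩ := exists_tuple (k * n / 2) S
    (fun j : ι => (pair j.1).comp W.subtype)
    (fun j hj => by
      rcases eq_of_vanish hτ0 (ω := j.1) (fun r hr => by
        have := LinearMap.congr_fun hj ⟨r, LinearMap.mem_ker.2 hr⟩
        exact this) with h | h
      · exact j.2.1 h
      · have := j.2.2
        rw [h, hτn] at this
        omega)
    (num_S k n hk hX _ _ hS hWcard) (num_i k n (n / 10) _ hk hX (by omega) hι)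
  have hrW : ∀ c : Fin (k * n / 2) → ZMod 2,
      ∑ i, c i • ((r i : W) : X → Fin k → ZMod 2) = ((∑ i, c i • r i : W) : X → Fin k → ZMod 2) :=
    fun c => by
      rw [Submodule.coe_sum]
      rfl
  have hlin : LinearIndependent (ZMod 2) fun i => ((r i : W) : X → Fin k → ZMod 2) := by
    rw [Fintype.linearIndependent_iff]
    intro c hc
    by_contra hcon
    refine hr1 c (fun h => hcon fun i => by rw [h]; rfl) ?_
    refine mem_filter.2 ⟨mem_univ _, x0, fun y _ => ?_⟩
    rw [← hrW, hc]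
    rfl
  refine ⟨Submodule.span (ZMod 2) (Set.range fun i => ((r i : W) : X → Fin k → ZMod 2)), ?_, ?_, ?_, ?_⟩
  · rw [finrank_span_eq_card hlin, Fintype.card_fin]
  · intro s hs
    obtain ⟨c, rfl⟩ := (Submodule.mem_span_range_iff_exists_fun _).1 hs
    rw [hrW]
    exact LinearMap.mem_ker.1 (∑ i, c i • r i : W).2
  · intro s hs x hx
    obtain ⟨c, rfl⟩ := (Submodule.mem_span_range_iff_exists_fun _).1 hs
    by_cases hc : c = 0
    · simp [hc]
    · exfalso
      refine hr1 c hc (mem_filter.2 ⟨mem_univ _, x, fun y hy => ?_⟩)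
      rw [← hrW]
      exact hx y hy
  · intro ω hω hω0
    by_contra hcon
    push Not at hcon
    obtain ⟨i, hi⟩ := hr2 ⟨ω, hω0, hcon⟩
    exact hi (hω _ (Submodule.subset_span ⟨i, rfl⟩))

/-- **Part C** -/
theorem partC : P089.PartC := by
  refine ⟨100, fun k hk X _ hX τ hτ B hB => ?_⟩
  obtain ⟨R, h1, h2, h3, h4⟩ := exists_code k hk X hX τ hτ B hB
  refine ⟨R, h1, h2, h3, fun ω hω hω0 => ?_⟩
  convert h4 ω hω hω0

end Vale.Agent.P089.C
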