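import Vale.Agent.Lib.P089.Interface
import Vale.Agent.Lib.P089.Interface2
import Vale.Agent.Lib.P089.C.Main

/-!
# P089 part C2: codes with one more relation
-/

namespace Vale.Agent.P089.C

open Finset

section

variable {X : Type} [Fintype X] {k : ℕ}

open scoped Classical in
theorem C2_card_mem_sub (R : Submodule (ZMod 2) (X → Fin k → ZMod 2)) :
    (univ.filter fun r : X → Fin k → ZMod 2 => r ∈ R).card =
      2 ^ Module.finrank (ZMod 2) R := by
  have h1 := Module.card_eq_pow_finrank (K := ZMod 2) (V := R)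
  rw [ZMod.card] at h1
  rw [← h1]
  exact (Fintype.card_of_subtype _ fun w => by simp).symm

open scoped Classical in
/-- number of vectors which are equal to a vector supported in `B` modulo `R` -/
theorem C2_card_bad_le (R : Submodule (ZMod 2) (X → Fin k → ZMod 2)) (B : Finset X) :
    (univ.filter fun rs : X → Fin k → ZMod 2 => ∃ r ∈ R, ∀ y, y ∉ B → (rs + r) y = 0).card ≤
      2 ^ Module.finrank (ZMod 2) R * (2 ^ k) ^ B.card := by
  rw [← C2_card_mem_sub R, ← card_supported B, ← card_product]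
  refine card_le_card_of_surjOn (fun p => p.2 - p.1) ?_
  intro rs hrs
  rw [mem_coe, mem_filter] at hrs
  obtain ⟨-, r, hr, h⟩ := hrs
  refine ⟨(r, rs + r), ?_, by simp⟩
  rw [mem_coe, mem_product, mem_filter, mem_filter]
  exact ⟨⟨mem_univ _, hr⟩, mem_univ _, h⟩

end

theorem num_C2 (k n e : ℕ) (hk : 2 ≤ k) (hn : 100 ≤ n) (he : 8 * e ≤ 5 * (k * n)) :
    2 * (n * 2 ^ e) < 2 ^ (k * n) := by
  have h1 : 2 * n ≤ k * n := Nat.mul_le_mul_right n hk
  have h2 : n / 4 < 2 ^ (n / 4) := Nat.lt_two_pow_self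
  have h3 : n < 2 ^ (n / 4 + 2) := by
    rw [pow_add]
    omega
  have h4 : n / 4 + 2 + e + 1 ≤ k * n := by omega
  calc 2 * (n * 2 ^ e) < 2 * (2 ^ (n / 4 + 2) * 2 ^ e) := by
        have : 0 < 2 ^ e := by positivity
        gcongr
    _ = 2 ^ (n / 4 + 2 + e + 1) := by ring
    _ ≤ 2 ^ (k * n) := Nat.pow_le_pow_right (by norm_num) h4

open scoped Classical in
theorem partC2_of_partC (h : P089.PartC) : P089.PartC2 := by
  obtain ⟨K0, h⟩ := h
  refine ⟨max K0 100, fun k hk X _ hX τ hτ B hB => ?_⟩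
  obtain ⟨R, h1, h2, h3, h4⟩ := h k hk X (le_trans (le_max_left _ _) hX) τ hτ B hB
  have hn : 100 ≤ Fintype.card X := le_trans (le_max_right _ _) hX
  set n := Fintype.card X with hndef
  obtain ⟨x0⟩ : Nonempty X := Fintype.card_pos_iff.1 (by omega)
  have hτ0 : τ ≠ 0 := fun h => hτ x0 (by rw [h]; rfl)
  have hker := card_ker (pair τ) (pair_ne_zero hτ0)
  have hV : Fintype.card (X → Fin k → ZMod 2) = 2 ^ (k * n) := by
    rw [Fintype.card_fun, Fintype.card_fun, Fintype.card_fin, ZMod.card, ← pow_mul]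
  by_contra hcon
  have hcov : (univ.filter fun w : X → Fin k → ZMod 2 => pair τ w = 0) ⊆
      (univ : Finset X).biUnion fun x => univ.filter fun rs : X → Fin k → ZMod 2 =>
        ∃ r ∈ R, ∀ y, y ∉ B x → (rs + r) y = 0 := by
    intro rs hrs
    rw [mem_filter] at hrs
    by_contra hbad
    apply hcon
    refine ⟨R, rs, h1, h2, h3, h4, hrs.2, fun r hr x hx => hbad ?_⟩
    rw [mem_biUnion]
    refine ⟨x, mem_univ _, ?_⟩
    rw [mem_filter]
    exact ⟨mem_univ _, r, hr, hx⟩
  have h5 := (card_le_card hcov).trans card_biUnion_le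
  have h6 : ∀ x ∈ (univ : Finset X), (univ.filter fun rs : X → Fin k → ZMod 2 =>
        ∃ r ∈ R, ∀ y, y ∉ B x → (rs + r) y = 0).card ≤ 2 ^ (k * n / 2 + k * (n / 8)) := by
    intro x _
    refine (C2_card_bad_le R (B x)).trans ?_
    rw [h1, ← pow_mul, ← pow_add]
    refine Nat.pow_le_pow_right (by norm_num) (Nat.add_le_add_left (Nat.mul_le_mul_left k ?_) _)
    have := hB x
    omega
  have h7 := h5.trans (sum_le_sum h6)
  rw [sum_const, card_univ, smul_eq_mul, ← hndef] at h7
  have h8 : 8 * (k * n / 2 + k * (n / 8)) ≤ 5 * (k * n) := by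
    have e1 : 2 * (k * n / 2) ≤ k * n := Nat.mul_div_le _ _
    have e2 : 8 * (k * (n / 8)) ≤ k * n := by
      calc 8 * (k * (n / 8)) = k * (8 * (n / 8)) := by ring
        _ ≤ k * n := Nat.mul_le_mul_left k (Nat.mul_div_le _ _)
    omega
  have h9 := num_C2 k n _ hk hn h8
  rw [← hV] at h9
  omega

end Vale.Agent.P089.C
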